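import Vale.Agent.P181.H385.Defs
import Vale.Agent.P181.R2.H959.FMul

set_option autoImplicit false

/-!
# P181, `RhsMul` (line TallAll of helper385): multiplication by a highest weight vector
-/

namespace Vale.Agent.P181.H696

open Vale.Agent.P181 Vale.Agent.P181.H280 Vale.Agent.P181.FR

/-- A positive multiplicity gives a nonzero highest weight vector. -/
theorem pos_of_plethMult {k a n : ℕ} {nu : Fin n → ℕ} (h : 1 ≤ plethMult k a n nu) :
    Pos k a n nu := by
  have h1 : hwSpace nu (plethAct k a n) ≠ ⊥ := by
    intro h0
    unfold plethMult at h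
    rw [h0, finrank_bot] at h
    omega
  obtain ⟨y, hy, hy0⟩ := Submodule.exists_mem_ne_zero_of_ne_bot h1
  exact ⟨y, hy, hy0⟩

theorem rhsMul : H385.RhsMul := by
  intro n a b k mu nu h
  exact plethMult_mul (lam := mu) (mu := nu) (pos_of_plethMult h)

end Vale.Agent.P181.H696
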